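import Vale.Agent.P181.TS.H695.Ord3
import Mathlib.LinearAlgebra.Matrix.ToLinearEquiv

/-!
# P181, TS: the leading coefficient of the singular minors ([TS-ORD2])
-/

set_option autoImplicit false

namespace Vale.Agent.P181.TS.H695

open Finset Vale.Agent.P181 Vale.Agent.P181.TS

/-- **Ord2** -/
theorem ord2 : Ord2 := by
  classical
  intro b r g l cl y G e hr hl he hsing
  obtain ⟨u, hu, v, hv, huv, hcl, hcard, hcode⟩ := hsing
  set K := miss cl (univ.image e) with hK
  rw [mn_eq G hl e, pow_succ]
  refine mul_dvd_mul_left _ ?_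
  rw [Polynomial.X_dvd_iff]
  have h0 := coeff_mn (r := r) (cl := cl) (y := y) G hl e
  rw [mn_eq G hl e] at h0
  have h1 := Polynomial.coeff_X_pow_mul (Matrix.det (Matrix.of fun a s : Fin l =>
        qt r cl y G (miss cl (univ.image e)) l (e a) s)) (miss cl (univ.image e)).card 0
  rw [zero_add] at h1
  rw [h1] at h0
  rw [h0]
  -- the block
  set β : ℕ := (cl u : ℕ) / r with hβ
  have hβg : β < g := Nat.div_lt_of_lt_mul (lt_of_lt_of_eq (cl u).isLt (mul_comm g r))
  have hcolr : ∀ j : Fin r, β * r + (j : ℕ) < g * r := fun j => by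
    have h2 : (β + 1) * r ≤ g * r := Nat.mul_le_mul_right r hβg
    have h3 := j.isLt
    have h4 : (β + 1) * r = β * r + r := by ring
    omega
  let col : Fin r → Fin (g * r) := fun j => ⟨β * r + j, hcolr j⟩
  have hcolβ : ∀ j, (col j : ℕ) / r = β := fun j => by
    simp only [col]
    rw [mul_comm, Nat.mul_add_div hr, Nat.div_eq_of_lt j.isLt, add_zero]
  let ι : Fin r → Fin l := fun j => ⟨β * r + j, lt_of_lt_of_le (hcolr j) hl⟩
  have hι : Function.Injective ι := fun i j h => by
    simp only [ι, Fin.mk.injEq] at h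
    ext
    omega
  -- the letters of the block, without `v`
  set B := (inBlk r cl (univ.image e) β).erase v with hB
  have hvB : v ∈ inBlk r cl (univ.image e) β := by
    rw [inBlk, mem_filter]
    exact ⟨hv, by rw [← hcl]⟩
  have huB : u ∈ B := by
    rw [hB, mem_erase, inBlk, mem_filter]
    exact ⟨huv, hu, rfl⟩
  have hBcard : B.card < r := by
    rw [hB, card_erase_of_mem hvB, hcard]
    omega
  let φ : (Fin r → ℂ) →ₗ[ℂ] (B → ℂ) :=
    Matrix.mulVecLin (Matrix.of fun (w : B) (j : Fin r) => nc r cl y K w (col j))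
  have hker : LinearMap.ker φ ≠ ⊥ := by
    apply LinearMap.ker_ne_bot_of_finrank_lt
    rw [Module.finrank_fintype_fun_eq_card, Module.finrank_fintype_fun_eq_card, Fintype.card_coe,
      Fintype.card_fin]
    exact hBcard
  obtain ⟨z, hz, hz0⟩ := Submodule.exists_mem_ne_zero_of_ne_bot hker
  have hzB : ∀ w ∈ B, ∑ j, nc r cl y K w (col j) * z j = 0 := by
    intro w hw
    have h := congr_fun (LinearMap.mem_ker.1 hz) ⟨w, hw⟩
    simpa [φ, Matrix.mulVec, dotProduct] using h
  have hzA : ∀ a : Fin l, ∑ j, nc r cl y K (e a) (col j) * z j = 0 := by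
    intro a
    by_cases hab : (cl (e a) : ℕ) / r = β
    · by_cases hav : e a = v
      · rw [← hzB u huB, hav]
        apply sum_congr rfl
        intro j _
        congr 1
        unfold nc
        by_cases hj : col j ∈ K
        · rw [if_pos hj, if_pos hj, ← hcl, hcode _ hj (hcolβ j)]
        · rw [if_neg hj, if_neg hj, ← hcl]
      · apply hzB
        rw [hB, mem_erase, inBlk, mem_filter]
        exact ⟨hav, mem_image_of_mem e (mem_univ a), hab⟩
    · apply sum_eq_zero
      intro j _
      unfold nc
      by_cases hj : col j ∈ K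
      · rw [if_pos hj, if_neg, zero_mul]
        rintro ⟨h, -⟩
        rw [hcolβ] at h
        exact hab h.symm
      · rw [if_neg hj, if_neg, zero_mul]
        intro h
        apply hab
        rw [h, hcolβ]
  refine Matrix.exists_mulVec_eq_zero_iff.1 ⟨Function.extend ι z 0, ?_, ?_⟩
  · intro h
    apply hz0
    ext j
    have := congr_fun h (ι j)
    rw [hι.extend_apply] at this
    exact this
  · ext a
    rw [Matrix.mulVec, dotProduct, Pi.zero_apply, ← hzA a]
    symm
    apply Fintype.sum_of_injective ι hι
    · intro s hs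
      rw [Function.extend_apply' _ _ _ (by simpa using hs), Pi.zero_apply, mul_zero]
    · intro j
      rw [hι.extend_apply]
      congr 1
      simp only [Matrix.of_apply, nt, ι, hcolr j, dite_true]
      rfl

end Vale.Agent.P181.TS.H695
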