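import Vale.Agent.P181.TS.Spec
import Mathlib.Algebra.MvPolynomial.Funext
import Mathlib.LinearAlgebra.Matrix.NonsingularInverse
import Mathlib.LinearAlgebra.Dimension.RankNullity

/-!
# P181, TS: the leading coefficient of the regular minors ([TS-ORD3])
-/

set_option autoImplicit false

namespace Vale.Agent.P181.TS.H695

open Finset Vale.Agent.P181 Vale.Agent.P181.TS

/-- the entry after `X` has been taken out of the columns `K` -/
noncomputable def qt {b R : ℕ} (r : ℕ) (cl : Fin b → Fin R) (y : Fin b → Fin R → Bool)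
    (G : Fin b → ℕ → ℂ) (K : Finset (Fin R)) (n : ℕ) (u : Fin b) (i : Fin n) : Polynomial ℂ :=
  if h : (i : ℕ) < R then
    (if (⟨i, h⟩ : Fin R) ∈ K then
      (if (i : ℕ) / r = (cl u : ℕ) / r ∧ y u ⟨i, h⟩ = true then 1 else 0)
    else pt r cl y G n u i)
  else Polynomial.C (G u i)

/-- the first `R` numerical columns -/
noncomputable def nc {b R : ℕ} (r : ℕ) (cl : Fin b → Fin R) (y : Fin b → Fin R → Bool)
    (K : Finset (Fin R)) (u : Fin b) (i : Fin R) : ℂ :=
  if i ∈ K then (if (i : ℕ) / r = (cl u : ℕ) / r ∧ y u i = true then 1 else 0)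
  else (if cl u = i then 1 else 0)

/-- the numerical entry -/
noncomputable def nt {b R : ℕ} (r : ℕ) (cl : Fin b → Fin R) (y : Fin b → Fin R → Bool)
    (G : Fin b → ℕ → ℂ) (K : Finset (Fin R)) (n : ℕ) (u : Fin b) (i : Fin n) : ℂ :=
  if h : (i : ℕ) < R then nc r cl y K u ⟨i, h⟩ else G u i

variable {b R : ℕ} {r : ℕ} {cl : Fin b → Fin R} {y : Fin b → Fin R → Bool}

lemma mem_miss_image {l : ℕ} {e : Fin l → Fin b} {k : Fin R} :
    k ∈ miss cl (univ.image e) ↔ ∀ a, cl (e a) ≠ k := by
  simp [miss]

lemma mn_eq (G : Fin b → ℕ → ℂ) {l : ℕ} (hl : R ≤ l) (e : Fin l → Fin b) :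
    mn r cl y G l e = Polynomial.X ^ (miss cl (univ.image e)).card *
      Matrix.det (Matrix.of fun a s : Fin l =>
        qt r cl y G (miss cl (univ.image e)) l (e a) s) := by
  classical
  set K := miss cl (univ.image e) with hK
  let d : Fin l → Polynomial ℂ := fun s =>
    if h : (s : ℕ) < R then (if (⟨s, h⟩ : Fin R) ∈ K then Polynomial.X else 1) else 1
  have hd : ∏ s, d s = Polynomial.X ^ K.card := by
    have h1 : ∏ s ∈ K.map (Fin.castLEEmb hl), d s = ∏ s, d s := by
      apply Finset.prod_subset (subset_univ _)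
      intro s _ hs
      simp only [d]
      split_ifs with h h'
      · exfalso
        apply hs
        rw [mem_map]
        exact ⟨⟨s, h⟩, h', by ext; simp⟩
      · rfl
      · rfl
    rw [← h1, prod_map]
    rw [show (∏ x ∈ K, d ((Fin.castLEEmb hl) x)) = ∏ x ∈ K, (Polynomial.X : Polynomial ℂ) from ?_]
    · rw [prod_const]
    · apply prod_congr rfl
      intro x hx
      simp only [d, Fin.castLEEmb_apply, Fin.val_castLE, x.isLt, dite_true]
      simp [hx]
  rw [← hd, ← Matrix.det_mul_row, mn]
  congr 1
  ext1 a s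
  simp only [Matrix.of_apply, d, qt]
  by_cases h : (s : ℕ) < R
  · simp only [h, dite_true]
    by_cases h' : (⟨s, h⟩ : Fin R) ∈ K
    · have hne : cl (e a) ≠ ⟨s, h⟩ := by
        rw [hK, mem_miss_image] at h'
        exact h' a
      simp only [h', if_true, pt, h, dite_true, hne, ne_eq, not_false_eq_true, true_and,
        if_false, zero_add, mul_ite, mul_one, mul_zero]
    · simp [h']
  · simp [h, pt]

lemma eval_qt (G : Fin b → ℕ → ℂ) (K : Finset (Fin R)) {l : ℕ} (u : Fin b) (s : Fin l) :
    Polynomial.eval 0 (qt r cl y G K l u s) = nt r cl y G K l u s := by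
  unfold qt nt nc
  by_cases h : (s : ℕ) < R
  · simp only [h, dite_true]
    by_cases h' : (⟨s, h⟩ : Fin R) ∈ K
    · simp only [h', if_true]
      split_ifs <;> simp
    · simp only [h', if_false, pt, h, dite_true, Polynomial.eval_add]
      split_ifs <;> simp
  · simp [h]

lemma coeff_mn (G : Fin b → ℕ → ℂ) {l : ℕ} (hl : R ≤ l) (e : Fin l → Fin b) :
    (mn r cl y G l e).coeff (miss cl (univ.image e)).card =
      Matrix.det (Matrix.of fun a s : Fin l =>
        nt r cl y G (miss cl (univ.image e)) l (e a) s) := by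
  rw [mn_eq G hl e]
  have h := Polynomial.coeff_X_pow_mul (Matrix.det (Matrix.of fun a s : Fin l =>
        qt r cl y G (miss cl (univ.image e)) l (e a) s)) (miss cl (univ.image e)).card 0
  rw [zero_add] at h
  rw [h, Polynomial.coeff_zero_eq_eval_zero]
  have h2 := RingHom.map_det (Polynomial.evalRingHom (0 : ℂ)) (Matrix.of fun a s : Fin l =>
        qt r cl y G (miss cl (univ.image e)) l (e a) s)
  rw [Polynomial.coe_evalRingHom] at h2
  rw [h2]
  congr 1
  ext a s
  simp [eval_qt]

/-- **Ord1** -/
theorem ord1 : Ord1 := by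
  intro b R r l cl y G e hl _
  rw [mn_eq G hl e]
  exact Dvd.intro _ rfl

/-- the first `R` numerical columns are linearly independent -/
lemma indep {b R r l : ℕ} {cl : Fin b → Fin R} {y : Fin b → Fin R → Bool} {e : Fin l → Fin b}
    (hreg : Reg r cl y (univ.image e)) :
    LinearIndependent ℂ (fun (i : Fin R) (a : Fin l) =>
      nc r cl y (miss cl (univ.image e)) (e a) i) := by
  classical
  set K := miss cl (univ.image e) with hK
  rw [Fintype.linearIndependent_iff]
  intro x hx
  -- the equation of the letter `a`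
  have hxa : ∀ a : Fin l, x (cl (e a)) + ∑ i ∈ K,
      x i * (if (i : ℕ) / r = (cl (e a) : ℕ) / r ∧ y (e a) i = true then 1 else 0) = 0 := by
    intro a
    have h := congr_fun hx a
    simp only [Finset.sum_apply, Pi.smul_apply, smul_eq_mul, Pi.zero_apply, nc] at h
    refine Eq.trans ?_ h
    rw [← Finset.sum_filter_add_sum_filter_not univ (fun i => i ∈ K), add_comm]
    congr 1
    · rw [show (univ.filter fun i => i ∈ K) = K by ext; simp]
      apply sum_congr rfl
      intro i hi
      rw [if_pos hi]
    · have hcl : cl (e a) ∉ K := by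
        intro hc
        rw [hK, mem_miss_image] at hc
        exact hc a rfl
      rw [Finset.sum_eq_single (cl (e a))]
      · simp [hcl]
      · intro i hi hne
        rw [mem_filter] at hi
        rw [if_neg hi.2, if_neg (fun h => hne h.symm), mul_zero]
      · intro h
        exact absurd (by simp [hcl]) h
  intro i
  rcases hreg ((i : ℕ) / r) with h0 | ⟨k, hk1, hk2, -, u, hu, v, hv, huv, hcl, hub, hy⟩
  · -- no missed class in the block of `i`
    have hi : i ∉ K := h0 i rfl
    rw [hK, mem_miss_image] at hi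
    push Not at hi
    obtain ⟨a, ha⟩ := hi
    have h := hxa a
    rw [Finset.sum_eq_zero] at h
    · rw [ha, add_zero] at h
      exact h
    · intro j hj
      rw [if_neg, mul_zero]
      rintro ⟨hj1, -⟩
      rw [ha] at hj1
      exact h0 j hj1 hj
  · -- exactly one missed class `k` in the block of `i`
    have hsum : ∀ a : Fin l, (cl (e a) : ℕ) / r = (i : ℕ) / r →
        x (cl (e a)) + x k * (if y (e a) k = true then 1 else 0) = 0 := by
      intro a ha
      have h := hxa a
      rw [Finset.sum_eq_single k] at h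
      · refine Eq.trans ?_ h
        congr 2
        rw [hk1, ha]
        simp
      · intro j hj hjk
        rw [if_neg, mul_zero]
        rintro ⟨hj1, -⟩
        rw [ha] at hj1
        exact hjk ((hk2 j hj1).1 hj)
      · intro hkK
        exact absurd ((hk2 k hk1).2 rfl) hkK
    have hxk : x k = 0 := by
      rw [mem_image] at hu hv
      obtain ⟨a, -, rfl⟩ := hu
      obtain ⟨a', -, rfl⟩ := hv
      have h1 := hsum a hub
      have h2 := hsum a' (by rw [← hcl]; exact hub)
      rw [← hcl] at h2
      rcases Bool.eq_false_or_eq_true (y (e a) k) with hya | hya <;>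
      rcases Bool.eq_false_or_eq_true (y (e a') k) with hya' | hya'
      · exact absurd (hya.trans hya'.symm) hy
      · rw [hya] at h1
        rw [hya'] at h2
        simp at h1 h2
        rw [h2, zero_add] at h1
        exact h1
      · rw [hya] at h1
        rw [hya'] at h2
        simp at h1 h2
        rw [h1, zero_add] at h2
        exact h2
      · exact absurd (hya.trans hya'.symm) hy
    by_cases hik : i = k
    · rw [hik]; exact hxk
    · have hi : i ∉ K := fun h => hik ((hk2 i rfl).1 h)
      rw [hK, mem_miss_image] at hi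
      push Not at hi
      obtain ⟨a, ha⟩ := hi
      have h := hsum a (by rw [ha])
      rw [hxk, zero_mul, add_zero, ha] at h
      exact h

/-- extension of an independent family -/
lemma extend {R l : ℕ} (N : Fin R → Fin l → ℂ) (hN : LinearIndependent ℂ N) :
    ∀ m : ℕ, R ≤ m → m ≤ l → ∃ v : Fin m → Fin l → ℂ, LinearIndependent ℂ v ∧
      ∀ (s : Fin m) (h : (s : ℕ) < R), v s = N ⟨s, h⟩ := by
  intro m hm
  induction m, hm using Nat.le_induction with
  | base => intro _; exact ⟨N, hN, fun s h => rfl⟩
  | succ m hm ih =>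
    intro hml
    obtain ⟨v, hv, hvs⟩ := ih (by omega)
    obtain ⟨x, hx⟩ := exists_linearIndependent_snoc_of_lt_finrank hv (by
      rw [Module.finrank_fin_fun]; omega)
    refine ⟨Fin.snoc v x, hx, ?_⟩
    intro s
    refine Fin.lastCases (fun h => ?_) (fun s h => ?_) s
    · rw [Fin.val_last] at h; omega
    · rw [Fin.snoc_castSucc]
      exact hvs s h

lemma exists_G {b R r l : ℕ} {cl : Fin b → Fin R} {y : Fin b → Fin R → Bool} {e : Fin l → Fin b}
    (hl : R ≤ l) (he : Function.Injective e) (hreg : Reg r cl y (univ.image e)) :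
    ∃ G : Fin b → ℕ → ℂ, Matrix.det (Matrix.of fun a s : Fin l =>
        nt r cl y G (miss cl (univ.image e)) l (e a) s) ≠ 0 := by
  classical
  obtain ⟨v, hv, hvs⟩ := extend _ (indep (cl := cl) (y := y) (e := e) hreg) l hl le_rfl
  refine ⟨fun u i => if h : (∃ a, e a = u) ∧ i < l then v ⟨i, h.2⟩ h.1.choose else 0, ?_⟩
  have hM : (Matrix.of fun a s : Fin l =>
        nt r cl y (fun u i => if h : (∃ a, e a = u) ∧ i < l then v ⟨i, h.2⟩ h.1.choose else 0)
          (miss cl (univ.image e)) l (e a) s) = Matrix.of fun a s => v s a := by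
    ext a s
    simp only [Matrix.of_apply, nt]
    split_ifs with h h'
    · rw [hvs s h]
    · congr 1
      exact he h'.1.choose_spec
    · exact absurd ⟨⟨a, rfl⟩, s.isLt⟩ h'
  rw [hM]
  have h1 : LinearIndependent ℂ (Matrix.of fun a s : Fin l => v s a).col := by
    have : (Matrix.of fun a s : Fin l => v s a).col = v := by
      ext s a
      simp [Matrix.col]
    rw [this]
    exact hv
  rw [Matrix.linearIndependent_cols_iff_isUnit, Matrix.isUnit_iff_isUnit_det] at h1
  exact h1.ne_zero

/-- the determinant as a polynomial in the generic entries -/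
noncomputable def pD {b R : ℕ} (r : ℕ) (cl : Fin b → Fin R) (y : Fin b → Fin R → Bool)
    (K : Finset (Fin R)) {l : ℕ} (e : Fin l → Fin b) : MvPolynomial (Fin b × ℕ) ℂ :=
  Matrix.det (Matrix.of fun a s : Fin l =>
    if h : (s : ℕ) < R then MvPolynomial.C (nc r cl y K (e a) ⟨s, h⟩)
    else MvPolynomial.X (e a, (s : ℕ)))

lemma eval_pD {b R r l : ℕ} {cl : Fin b → Fin R} {y : Fin b → Fin R → Bool}
    (K : Finset (Fin R)) (e : Fin l → Fin b) (g : Fin b × ℕ → ℂ) :
    MvPolynomial.eval g (pD r cl y K e) =
      Matrix.det (Matrix.of fun a s : Fin l => nt r cl y (fun u i => g (u, i)) K l (e a) s) := by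
  unfold pD
  rw [RingHom.map_det]
  congr 1
  ext a s
  simp only [RingHom.mapMatrix_apply, Matrix.map_apply, Matrix.of_apply, nt]
  split_ifs <;> simp

/-- **Ord3** -/
theorem ord3 : Ord3 := by
  classical
  intro b r g cl y ι _ l e _ hl he hreg
  have := Fintype.ofFinite ι
  have hne : ∀ c, pD r cl y (miss cl (univ.image (e c))) (e c) ≠ 0 := by
    intro c h0
    obtain ⟨G, hG⟩ := exists_G (hl c) (he c) (hreg c)
    apply hG
    have h := eval_pD (r := r) (cl := cl) (y := y) (miss cl (univ.image (e c))) (e c)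
      (fun p => G p.1 p.2)
    rw [h0, map_zero] at h
    exact h.symm
  have hprod : (∏ c, pD r cl y (miss cl (univ.image (e c))) (e c)) ≠ 0 :=
    Finset.prod_ne_zero_iff.2 fun c _ => hne c
  obtain ⟨x, hx⟩ : ∃ x : Fin b × ℕ → ℂ,
      MvPolynomial.eval x (∏ c, pD r cl y (miss cl (univ.image (e c))) (e c)) ≠ 0 := by
    by_contra hcon
    push Not at hcon
    apply hprod
    apply MvPolynomial.funext
    intro x
    rw [hcon x, map_zero]
  refine ⟨fun u i => x (u, i), fun c => ?_⟩
  rw [coeff_mn _ (hl c), ← eval_pD]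
  rw [map_prod] at hx
  exact (Finset.prod_ne_zero_iff.1 hx) c (mem_univ c)

end Vale.Agent.P181.TS.H695
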